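import Crest.Agent.N221.Z.Defs

/-! Row 221, Szabo's lemma: `projS`, `szS` -/

set_option autoImplicit false

open Set Polynomial
open scoped RealInnerProductSpace

namespace Crest.Agent.N221.Z

namespace Sz

variable {V : Type} [NormedAddCommGroup V] [InnerProductSpace ℝ V] [FiniteDimensional ℝ V]

omit [FiniteDimensional ℝ V] in
/-- transport of a fixed vector along a continuous family of projections -/
theorem transport {D : Set V} (hD : IsCompact D) {F : ℝ × V → V →L[ℝ] V}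
    (hF : ContinuousOn F (Icc 0 1 ×ˢ D)) (hi : ∀ s, ∀ v ∈ D, ∀ x, F (s, v) (F (s, v) x) = F (s, v) x)
    {w : V} (hw : w ≠ 0) (h0 : ∀ v ∈ D, F (0, v) w = w) :
    ∃ t : V → V, ContinuousOn t D ∧ ∀ v ∈ D, F (1, v) (t v) = t v ∧ t v ≠ 0 := by
  obtain ⟨δ, hδ, hu⟩ := Metric.uniformContinuousOn_iff.1
    ((isCompact_Icc.prod hD).uniformContinuousOn_of_continuous hF) 1 one_pos
  obtain ⟨N, hN⟩ := exists_nat_one_div_lt hδ
  have N0 : (0 : ℝ) < N + 1 := by positivity
  have m : ∀ j : ℕ, j ≤ N + 1 → (j : ℝ) / (N + 1) ∈ Icc (0 : ℝ) 1 := fun j hj =>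
    ⟨by positivity, (div_le_one N0).2 (by exact_mod_cast hj)⟩
  have key : ∀ j : ℕ, j ≤ N + 1 → ∃ t : V → V, ContinuousOn t D ∧
      ∀ v ∈ D, F (j / (N + 1), v) (t v) = t v ∧ t v ≠ 0 := by
    intro j
    induction j with
    | zero => exact fun _ => ⟨fun _ => w, continuousOn_const, fun v hv => ⟨by simpa using h0 v hv, hw⟩⟩
    | succ j ih =>
      intro hj
      obtain ⟨t, t1, t2⟩ := ih (by omega)
      refine ⟨fun v => F ((j + 1 : ℕ) / (N + 1), v) (t v), (hF.comp (by fun_prop)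
        fun v hv => ⟨m _ hj, hv⟩).clm_apply t1, fun v hv => ⟨hi _ v hv _, fun e => ?_⟩⟩
      have h1 := hu ((j + 1 : ℕ) / (N + 1), v) ⟨m _ hj, hv⟩ (j / (N + 1), v) ⟨m _ (by omega), hv⟩ (by
        rw [Prod.dist_eq, dist_self, Real.dist_eq, ← sub_div]
        simpa [abs_of_pos N0, hδ] using hN)
      rw [dist_eq_norm] at h1
      have h2 := (F ((j + 1 : ℕ) / (N + 1), v) - F (j / (N + 1), v)).le_opNorm (t v)
      rw [_root_.sub_apply, (t2 v hv).1, show F _ (t v) = 0 from e, zero_sub, norm_neg] at h2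
      nlinarith [norm_pos_iff.2 (t2 v hv).2]
  simpa [N0.ne'] using key (N + 1) le_rfl

theorem diag {B : V →L[ℝ] V} (h : ∀ x y, ⟪B x, y⟫ = ⟪x, B y⟫) :
    ∃ (b : OrthonormalBasis (Fin (Module.finrank ℝ V)) ℝ V) (μ : Fin (Module.finrank ℝ V) → ℝ),
      (∀ (g : ℝ[X]) i, aeval B g (b i) = g.eval (μ i) • b i) ∧
      ∀ g : ℝ[X], LinearMap.trace ℝ V (aeval B g : V →L[ℝ] V) = ∑ i, g.eval (μ i) := by
  have hs : (B : V →ₗ[ℝ] V).IsSymmetric := h
  have h1 : ∀ (g : ℝ[X]) i, aeval B g (hs.eigenvectorBasis rfl i) =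
      g.eval (hs.eigenvalues rfl i) • hs.eigenvectorBasis rfl i := fun g i => by
    have h2 : ∀ k : ℕ, (B ^ k) (hs.eigenvectorBasis rfl i) =
        hs.eigenvalues rfl i ^ k • hs.eigenvectorBasis rfl i := fun k => by
      induction k with
      | zero => simp
      | succ k ih =>
        have h3 : B _ = _ := hs.apply_eigenvectorBasis rfl i
        rw [pow_succ', ContinuousLinearMap.mul_apply, ih, map_smul, h3, smul_smul, pow_succ]
        rfl
    rw [aeval_eq_sum_range, eval_eq_sum_range, Finset.sum_smul, ContinuousLinearMap.sum_apply]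
    exact Finset.sum_congr rfl fun k _ => by rw [_root_.smul_apply, h2, smul_smul]
  refine ⟨_, _, h1, fun g => ?_⟩
  rw [LinearMap.trace_eq_sum_inner _ (hs.eigenvectorBasis rfl)]
  refine Finset.sum_congr rfl fun i _ => ?_
  rw [ContinuousLinearMap.coe_coe, h1, inner_smul_right, real_inner_self_eq_norm_sq,
    (hs.eigenvectorBasis rfl).orthonormal.1 i]
  simp

end Sz

open Sz in
theorem projS (h : EvenS) : ProjS := fun V _ _ _ T Q hQ h1 h2 hT u hu hu1 => by
  by_contra hne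
  obtain ⟨x0, hx0⟩ : ∃ x, Q u x ≠ 0 := by
    by_contra! e
    exact hne (ContinuousLinearMap.ext e)
  have : Nontrivial T := Module.nontrivial_of_finrank_pos (R := ℝ) (by omega)
  have cS : IsClosed {v : V | v ∈ T ∧ ‖v‖ = 1} :=
    T.closed_of_finiteDimensional.inter (isClosed_eq continuous_norm continuous_const)
  have ci : Continuous fun v : V => ⟪v, u⟫ := by fun_prop
  set D := {v : V | v ∈ T ∧ ‖v‖ = 1} ∩ {v | -1 / 2 ≤ ⟪v, u⟫} with hD
  have cD : IsClosed D := cS.inter (isClosed_le continuous_const ci)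
  have g0 : ∀ (s : ℝ), ∀ v ∈ D, ‖(1 - s) • u + s • v‖ ≠ 0 := fun s v hv e => by
    have e1 := congrArg (fun x => ⟪x, u + v⟫) (norm_eq_zero.1 e)
    have e2 : -1 / 2 ≤ ⟪v, u⟫ := hv.2
    simp only [inner_add_left, inner_add_right, real_inner_smul_left, real_inner_self_eq_norm_sq, hu1,
      hv.1.2, inner_zero_left, real_inner_comm v u] at e1
    linarith
  have g1 : ∀ (s : ℝ), ∀ v ∈ D, ‖(1 - s) • u + s • v‖⁻¹ • ((1 - s) • u + s • v) ∈
      {v : V | v ∈ T ∧ ‖v‖ = 1} := fun s v hv =>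
    ⟨T.smul_mem _ (T.add_mem (T.smul_mem _ hu) (T.smul_mem _ hv.1.1)), by
      rw [norm_smul, norm_inv, norm_norm, inv_mul_cancel₀ (g0 s v hv)]⟩
  obtain ⟨t, t1, t2⟩ := transport (D := D) ((isCompact_sphere (0 : V) 1).of_isClosed_subset cD
      fun v hv => by simpa using hv.1.2)
    (F := fun p => Q (‖(1 - p.1) • u + p.1 • p.2‖⁻¹ • ((1 - p.1) • u + p.1 • p.2)))
    (hQ.comp ((ContinuousOn.inv₀ (by fun_prop) fun p hp => g0 _ _ hp.2).smul (by fun_prop))
      fun p hp => g1 _ _ hp.2) (fun s v hv x => (h1 _ (g1 s v hv).1 (g1 s v hv).2 x).1) hx0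
    fun v _ => by simpa [hu1] using (h1 u hu hu1 x0).1
  set σ : V → V := fun v => max 0 (2 * ⟪v, u⟫ + 1) • t v with hσ
  have s0 : ∀ v, ⟪v, u⟫ ≤ -1 / 2 → σ v = 0 := fun v hv => by
    simp only [hσ]; rw [max_eq_left (by linarith), zero_smul]
  have s1 : ContinuousOn σ {v : V | v ∈ T ∧ ‖v‖ = 1} :=
    ((((continuous_const.max (by fun_prop)).continuousOn.smul t1).union_of_isClosed
      (continuousOn_const.congr s0) cD (isClosed_le ci continuous_const))).mono fun v hv =>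
        (le_total (-1 / 2) ⟪v, u⟫).imp (fun e => ⟨hv, e⟩) id
  have s2 : ∀ v ∈ T, ‖v‖ = 1 → Q v (σ v) = σ v := fun v hv hv1 => by
    rcases le_total (-1 / 2) ⟪v, u⟫ with e | e
    · have := (t2 v ⟨⟨hv, hv1⟩, e⟩).1
      simp only [sub_self, zero_smul, one_smul, zero_add, hv1, inv_one] at this
      simp only [hσ, map_smul, this]
    · rw [s0 v e, map_zero]
  have s3 : ∀ v ∈ T, ‖v‖ = 1 → σ v + σ (-v) = 0 → ⟪v, u⟫ < 0 := fun v hv hv1 e => by
    by_contra! e1
    have e2 := h2 v hv hv1 (σ v) (σ (-v)) (by rw [s2 v hv hv1, s2 _ (T.neg_mem hv) (by simpa), e])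
    rw [s2 v hv hv1] at e2
    exact smul_ne_zero (lt_max_of_lt_right (by linarith)).ne'
      (t2 v ⟨⟨hv, hv1⟩, show -1 / 2 ≤ ⟪v, u⟫ by linarith⟩).2 e2
  have s4 : ∀ v ∈ T, ‖v‖ = 1 → σ v ∈ T ∧ ⟪σ v, v⟫ = 0 := fun v hv hv1 =>
    s2 v hv hv1 ▸ (h1 v hv hv1 (σ v)).2
  have s5 : ∀ v : T, ‖v‖ = 1 → (T.orthogonalProjectionOnto (σ v + σ (-v)) : V) = σ v + σ (-v) :=
    fun v hv => Submodule.starProjection_eq_self_iff.2 (T.add_mem (s4 v v.2 hv).1
      (s4 _ (T.neg_mem v.2) (by simpa)).1)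
  obtain ⟨v, hv, e⟩ := h T (fun v => T.orthogonalProjectionOnto (σ v + σ (-v)))
    (T.orthogonalProjectionOnto.continuous.comp_continuousOn
      ((s1.comp continuous_subtype_val.continuousOn fun v hv => ⟨v.2, by simpa using hv⟩).add
        (s1.comp continuous_subtype_val.neg.continuousOn fun v hv =>
          ⟨T.neg_mem v.2, by simpa using hv⟩)))
    (fun v _ => by simp only [Submodule.coe_neg, neg_neg, add_comm]) fun v hv => by
      have := (s4 _ (T.neg_mem v.2) (by simpa)).2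
      rw [inner_neg_right, neg_eq_zero] at this
      rw [Submodule.coe_inner, s5 v hv, inner_add_left, (s4 v v.2 hv).2, this, add_zero]
  have e1 : σ v + σ (-v) = 0 := by rw [← s5 v hv, e]; rfl
  have e2 := s3 _ (T.neg_mem v.2) (by simpa) (by rw [neg_neg, add_comm, e1])
  rw [inner_neg_left] at e2
  linarith [s3 v v.2 hv e1]

open Sz in
theorem szS (h : ProjS) : SzS := fun V _ _ _ T A hA hT h1 h2 u hu hu1 => by
  classical
  choose c hc using h2
  have tr : ∀ (g : ℝ[X]), ∀ v ∈ T, ‖v‖ = 1 → LinearMap.trace ℝ V (aeval (A v) g : V →L[ℝ] V) =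
      ∑ k ∈ Finset.range (g.natDegree + 1), g.coeff k * c k := fun g v hv hv1 => by
    rw [aeval_eq_sum_range, ContinuousLinearMap.toLinearMap_sum, map_sum]
    exact Finset.sum_congr rfl fun k _ => by
      rw [ContinuousLinearMap.toLinearMap_smul, map_smul, hc k v hv hv1, smul_eq_mul]
  obtain ⟨-, μ, -, hμ⟩ := diag (h1 u hu hu1).1
  set Λ : Finset ℝ := insert 0 (Finset.univ.image μ ∪ Finset.univ.image fun i => -μ i) with hΛ
  have L1 : ∀ l ∈ Λ, -l ∈ Λ := fun l hl => by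
    simp only [hΛ, Finset.mem_insert, Finset.mem_union, Finset.mem_image, Finset.mem_univ,
      true_and] at hl ⊢
    rcases hl with rfl | ⟨i, rfl⟩ | ⟨i, rfl⟩
    exacts [.inl neg_zero, .inr (.inr ⟨i, rfl⟩), .inr (.inl ⟨i, (neg_neg _).symm⟩)]
  have kill : ∀ v ∈ T, ‖v‖ = 1 → ∀ g : ℝ[X], (∀ l ∈ Λ, g.eval l = 0) → aeval (A v) g = 0 :=
    fun v hv hv1 g hg => by
    obtain ⟨b, ν, b1, b2⟩ := diag (h1 v hv hv1).1
    have q : ∀ r, ((∏ l ∈ Λ, (X - C l)) ^ 2 : ℝ[X]).eval r = (∏ l ∈ Λ, (r - l)) ^ 2 := fun r => by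
      simp [eval_prod]
    have e := b2 ((∏ l ∈ Λ, (X - C l)) ^ 2)
    rw [tr _ v hv hv1, ← tr _ u hu hu1, hμ, Finset.sum_eq_zero fun i _ => by
      rw [q, Finset.prod_eq_zero (i := μ i) (by simp [hΛ]) (sub_self _), zero_pow two_ne_zero]] at e
    simp only [q] at e
    refine ContinuousLinearMap.coe_injective (b.toBasis.ext fun i => ?_)
    obtain ⟨l, hl, e1⟩ := Finset.prod_eq_zero_iff.1 (pow_eq_zero_iff two_ne_zero |>.1
      ((Finset.sum_eq_zero_iff_of_nonneg fun i _ => sq_nonneg _).1 e.symm i (Finset.mem_univ i)))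
    simp [b1, sub_eq_zero.1 e1, hg l hl]
  set p : ℝ[X] := Lagrange.interpolate Λ id fun l => if 0 < l then 1 else 0 with hp
  have p1 : ∀ l ∈ Λ, p.eval l = if 0 < l then 1 else 0 := fun l hl =>
    Lagrange.eval_interpolate_at_node (v := id) _ (injOn_id _) hl
  have p2 : ∀ v ∈ T, ‖v‖ = 1 → aeval (A (-v)) p = aeval (A v) (p.comp (-X)) := fun v hv hv1 => by
    rw [aeval_comp, map_neg, aeval_X, (h1 v hv hv1).2.2.2]
  have p3 : p = X * p.divX := by
    have := X_mul_divX_add p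
    rw [coeff_zero_eq_eval_zero, p1 0 (by simp [hΛ]), if_neg (lt_irrefl _), map_zero,
      add_zero] at this
    exact this.symm
  have id1 : ∀ v ∈ T, ‖v‖ = 1 → ∀ x, aeval (A v) p (aeval (A v) p x) = aeval (A v) p x :=
    fun v hv hv1 x => by
    have := kill v hv hv1 (p * p - p) fun l hl => by
      rw [eval_sub, eval_mul, p1 l hl]; split_ifs <;> simp
    rw [map_sub, map_mul, sub_eq_zero] at this
    exact congr($this x)
  have hQ := h V T (fun v => aeval (A v) p) ((p.continuous_aeval).comp_continuousOn hA)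
    (fun v hv hv1 x => ⟨id1 v hv hv1 x, by
      rw [p3, map_mul, aeval_X, ContinuousLinearMap.mul_apply, (h1 v hv hv1).1,
        (h1 v hv hv1).2.2.1, inner_zero_right]
      exact ⟨(h1 v hv hv1).2.1 _, rfl⟩⟩) (fun v hv hv1 x y e => by
      have e1 := kill v hv hv1 (p * p.comp (-X)) fun l hl => by
        rw [eval_mul, eval_comp, eval_neg, eval_X, p1 l hl, p1 _ (L1 l hl)]
        split_ifs <;> linarith
      have e2 := congrArg (aeval (A v) p) e
      rwa [map_add, id1 v hv hv1, p2 v hv hv1, ← ContinuousLinearMap.mul_apply, ← map_mul, e1,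
        map_zero, _root_.zero_apply, add_zero] at e2) hT
  have e := kill u hu hu1 (X - X * p - X * p.comp (-X)) fun l hl => by
    rw [eval_sub, eval_sub, eval_mul, eval_mul, eval_comp, eval_neg, eval_X, p1 l hl, p1 _ (L1 l hl)]
    split_ifs <;> linarith
  rwa [map_sub, map_sub, map_mul, map_mul, ← p2 u hu hu1, show aeval (A u) p = 0 from hQ u hu hu1,
    show aeval (A (-u)) p = 0 from hQ _ (T.neg_mem hu) (by simpa), mul_zero, sub_zero, sub_zero,
    aeval_X] at e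

end Crest.Agent.N221.Z
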