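import Mathlib

/-! Row 221, Szabo's lemma (helper71): statements.  Pure Mathlib. -/

set_option autoImplicit false

open Set
open scoped RealInnerProductSpace

namespace Crest.Agent.N221.Z

/-- Borsuk–Ulam on `S^a × S^b`: `p` functions of type (even, odd), `q` functions of type
(odd, odd), `p + q = a + b`, `q.choose a` odd. -/
def BUS : Prop := ∀ (a b p q : ℕ), p + q = a + b → Odd (q.choose a) →
  ∀ (F : (Fin (a + 1) → ℝ) → (Fin (b + 1) → ℝ) → (Fin p → ℝ))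
    (G : (Fin (a + 1) → ℝ) → (Fin (b + 1) → ℝ) → (Fin q → ℝ)),
    ContinuousOn (fun z : (Fin (a + 1) → ℝ) × (Fin (b + 1) → ℝ) => F z.1 z.2)
      {z | z.1 ≠ 0 ∧ z.2 ≠ 0} →
    ContinuousOn (fun z : (Fin (a + 1) → ℝ) × (Fin (b + 1) → ℝ) => G z.1 z.2)
      {z | z.1 ≠ 0 ∧ z.2 ≠ 0} →
    (∀ s v, s ≠ 0 → v ≠ 0 → F (-s) v = F s v) → (∀ s v, s ≠ 0 → v ≠ 0 → F s (-v) = -F s v) →
    (∀ s v, s ≠ 0 → v ≠ 0 → G (-s) v = -G s v) → (∀ s v, s ≠ 0 → v ≠ 0 → G s (-v) = -G s v) →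
    ∃ s v, s ≠ 0 ∧ v ≠ 0 ∧ F s v = 0 ∧ G s v = 0

/-- an even continuous tangent field on a sphere has a zero -/
def EvenS : Prop := ∀ (V : Type) [NormedAddCommGroup V] [InnerProductSpace ℝ V]
  [FiniteDimensional ℝ V] [Nontrivial V] (w : V → V), ContinuousOn w (Metric.sphere 0 1) →
  (∀ v, ‖v‖ = 1 → w (-v) = w v) → (∀ v, ‖v‖ = 1 → ⟪w v, v⟫ = 0) → ∃ v, ‖v‖ = 1 ∧ w v = 0

/-- a continuous field of projections `Q v` on the unit sphere of a subspace `T`, with values in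
`T ∩ v^⊥` and `⟪Q v x, Q (-v) y⟫`-type orthogonality in the weak form `Q v x + Q (-v) y = 0 →
Q v x = 0`, vanishes -/
def ProjS : Prop := ∀ (V : Type) [NormedAddCommGroup V] [InnerProductSpace ℝ V]
  [FiniteDimensional ℝ V] (T : Submodule ℝ V) (Q : V → V →L[ℝ] V),
  ContinuousOn Q {v | v ∈ T ∧ ‖v‖ = 1} →
  (∀ v ∈ T, ‖v‖ = 1 → ∀ x, Q v (Q v x) = Q v x ∧ Q v x ∈ T ∧ ⟪Q v x, v⟫ = 0) →
  (∀ v ∈ T, ‖v‖ = 1 → ∀ x y, Q v x + Q (-v) y = 0 → Q v x = 0) →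
  2 ≤ Module.finrank ℝ T → ∀ v ∈ T, ‖v‖ = 1 → Q v = 0

/-- **Szabo's lemma** -/
def SzS : Prop := ∀ (V : Type) [NormedAddCommGroup V] [InnerProductSpace ℝ V]
  [FiniteDimensional ℝ V] (T : Submodule ℝ V) (A : V → V →L[ℝ] V),
  ContinuousOn A {v | v ∈ T ∧ ‖v‖ = 1} → 2 ≤ Module.finrank ℝ T →
  (∀ v ∈ T, ‖v‖ = 1 → (∀ x y, ⟪A v x, y⟫ = ⟪x, A v y⟫) ∧ (∀ x, A v x ∈ T) ∧ A v v = 0 ∧
    A (-v) = -A v) →
  (∀ k : ℕ, ∃ c : ℝ, ∀ v ∈ T, ‖v‖ = 1 →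
    LinearMap.trace ℝ V ((A v ^ k : V →L[ℝ] V) : V →ₗ[ℝ] V) = c) →
  ∀ v ∈ T, ‖v‖ = 1 → A v = 0

end Crest.Agent.N221.Z
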